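import Vale.Agent.P095.All.FA.Props.Proj

/-!
# P095: the action induced on `F_ω(A)`

An automorphism of `A` extends to the unitization, acts on the central sequence algebra, keeps the
kernel of `proj` and so acts on `F_ω(A)`.
-/

namespace Vale.Agent.P095.All

open Filter Topology BoundedContinuousFunction Vale.Agent.P101.KR Vale.Agent.P095.Equiv
open scoped MultiplierAlgebra

noncomputable section

variable {A : Type} [NonUnitalCStarAlgebra A] {ω : Ultrafilter ℕ} {G : Type}

theorem starMap_fst (φ : A →⋆ₙₐ[ℂ] A) (x : Unitization ℂ A) :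
    (Unitization.starMap φ x).fst = x.fst := by
  induction x using Unitization.ind with
  | inl_add_inr r a => simp [Unitization.algebraMap_eq_inl]

theorem starMap_snd (φ : A →⋆ₙₐ[ℂ] A) (x : Unitization ℂ A) :
    (Unitization.starMap φ x).snd = φ x.snd := by
  induction x using Unitization.ind with
  | inl_add_inr r a => simp [Unitization.algebraMap_eq_inl]

/-- An automorphism of `A` on the unitization. -/
def unitEquiv (e : A ≃⋆ₐ[ℂ] A) : Unitization ℂ A ≃⋆ₐ[ℂ] Unitization ℂ A :=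
  StarAlgEquiv.ofStarAlgHom (Unitization.starMap (e : A →⋆ₙₐ[ℂ] A))
    (Unitization.starMap (e.symm : A →⋆ₙₐ[ℂ] A))
    (by ext <;> simp) (by ext <;> simp)

theorem unitEquiv_apply (e : A ≃⋆ₐ[ℂ] A) (x : Unitization ℂ A) :
    unitEquiv e x = Unitization.starMap (e : A →⋆ₙₐ[ℂ] A) x := rfl

theorem unitEquiv_hom (e : A ≃⋆ₐ[ℂ] A) :
    (unitEquiv e).toStarAlgHom = Unitization.starMap (e : A →⋆ₙₐ[ℂ] A) :=
  StarAlgHom.ext fun _ => rfl

theorem unitEquiv_mul [Mul G] {α : G → A ≃⋆ₐ[ℂ] A}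
    (hα : ∀ g h a, α (g * h) a = α g (α h a)) (g h : G) (x : Unitization ℂ A) :
    unitEquiv (α (g * h)) x = unitEquiv (α g) (unitEquiv (α h) x) := by
  simp only [unitEquiv_apply]
  exact Unitization.ext (by rw [starMap_fst, starMap_fst, starMap_fst])
    (by rw [starMap_snd, starMap_snd, starMap_snd]; exact hα g h _)

/-- The action on the central sequence algebra of the unitization. -/
def cAct (α : G → A ≃⋆ₐ[ℂ] A) (g : G) :
    CentralAlgebra ω (Unitization ℂ A) →⋆ₐ[ℂ] CentralAlgebra ω (Unitization ℂ A) :=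
  centralAct ω (fun g => unitEquiv (α g)) g

theorem cAct_coe (α : G → A ≃⋆ₐ[ℂ] A) (g : G) (x : CentralAlgebra ω (Unitization ℂ A)) :
    (cAct α g x : AOmega (Unitization ℂ A) ω) =
      omegaMap ω (Unitization.starMap (α g : A →⋆ₙₐ[ℂ] A)) x.1 := rfl

theorem omegaMap_embA (e : A ≃⋆ₐ[ℂ] A) (a : A) :
    omegaMap ω (Unitization.starMap (e : A →⋆ₙₐ[ℂ] A)) (embA A ω a) = embA A ω (e a) := by
  rw [embA_apply, omegaMap_emb, embA_apply]
  simp

/-- An induced action is determined on lifts. -/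
theorem IsInduced.apply_proj {α : G → A ≃⋆ₐ[ℂ] A} {β : G → FA A ω ≃⋆ₐ[ℂ] FA A ω}
    (h : IsInduced A ω α β) (g : G) (x : CentralAlgebra ω (Unitization ℂ A)) :
    β g (proj A ω x) = proj A ω (cAct α g x) :=
  h g x _ (cAct_coe α g x)

theorem IsInduced.restrict {α : G → A ≃⋆ₐ[ℂ] A} {β : G → FA A ω ≃⋆ₐ[ℂ] FA A ω}
    (h : IsInduced A ω α β) {H : Type} (f : H → G) :
    IsInduced A ω (fun k => α (f k)) (fun k => β (f k)) :=
  fun k => h (f k)

theorem proj_cAct_eq_zero (α : G → A ≃⋆ₐ[ℂ] A) (g : G)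
    {x : CentralAlgebra ω (Unitization ℂ A)} (hx : proj A ω x = 0) :
    proj A ω (cAct α g x) = 0 := by
  refine proj_eq_zero_iff.2 fun a => ?_
  rw [cAct_coe, ← (α g).apply_symm_apply a, ← omegaMap_embA, ← map_mul,
    proj_eq_zero_iff.1 hx, map_zero]

theorem proj_cAct_congr (α : G → A ≃⋆ₐ[ℂ] A) (g : G)
    {x x' : CentralAlgebra ω (Unitization ℂ A)} (h : proj A ω x = proj A ω x') :
    proj A ω (cAct α g x) = proj A ω (cAct α g x') := by
  rw [← sub_eq_zero, ← map_sub, ← map_sub]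
  exact proj_cAct_eq_zero α g (by rw [map_sub, h, sub_self])

/-- The map induced by one automorphism in a family. -/
def indFun (α : G → A ≃⋆ₐ[ℂ] A) (g : G) (y : FA A ω) : FA A ω :=
  proj A ω (cAct α g (Function.surjInv proj_surjective y))

theorem indFun_proj (α : G → A ≃⋆ₐ[ℂ] A) (g : G) (x : CentralAlgebra ω (Unitization ℂ A)) :
    indFun α g (proj A ω x) = proj A ω (cAct α g x) :=
  proj_cAct_congr α g (Function.surjInv_eq proj_surjective _)

theorem indFun_one (α : G → A ≃⋆ₐ[ℂ] A) (g : G) : indFun (ω := ω) α g 1 = 1 := by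
  have h := indFun_proj (ω := ω) α g 1
  rwa [map_one, map_one, map_one] at h

theorem indFun_mul (α : G → A ≃⋆ₐ[ℂ] A) (g : G) (y z : FA A ω) :
    indFun α g (y * z) = indFun α g y * indFun α g z := by
  obtain ⟨x, rfl⟩ := proj_surjective y
  obtain ⟨w, rfl⟩ := proj_surjective z
  rw [← map_mul, indFun_proj, indFun_proj, indFun_proj, map_mul, map_mul]

theorem indFun_add (α : G → A ≃⋆ₐ[ℂ] A) (g : G) (y z : FA A ω) :
    indFun α g (y + z) = indFun α g y + indFun α g z := by
  obtain ⟨x, rfl⟩ := proj_surjective y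
  obtain ⟨w, rfl⟩ := proj_surjective z
  rw [← map_add, indFun_proj, indFun_proj, indFun_proj, map_add, map_add]

theorem indFun_star (α : G → A ≃⋆ₐ[ℂ] A) (g : G) (y : FA A ω) :
    indFun α g (star y) = star (indFun α g y) := by
  obtain ⟨x, rfl⟩ := proj_surjective y
  rw [← map_star, indFun_proj, indFun_proj, map_star, map_star]

theorem indFun_smul (α : G → A ≃⋆ₐ[ℂ] A) (g : G) (r : ℂ) (y : FA A ω) :
    indFun α g (r • y) = r • indFun α g y := by
  obtain ⟨x, rfl⟩ := proj_surjective y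
  rw [← map_smul, indFun_proj, indFun_proj, map_smul, map_smul]

/-- The endomorphism of `F_ω(A)` induced by one automorphism in a family. -/
def indHom (α : G → A ≃⋆ₐ[ℂ] A) (g : G) : FA A ω →⋆ₐ[ℂ] FA A ω where
  toFun := indFun α g
  map_one' := indFun_one α g
  map_zero' := by simpa using indFun_smul (ω := ω) α g 0 0
  map_mul' := indFun_mul α g
  map_add' := indFun_add α g
  commutes' r := by
    rw [Algebra.algebraMap_eq_smul_one, indFun_smul, indFun_one]
  map_star' := indFun_star α g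

theorem indHom_proj (α : G → A ≃⋆ₐ[ℂ] A) (g : G) (x : CentralAlgebra ω (Unitization ℂ A)) :
    indHom α g (proj A ω x) = proj A ω (cAct α g x) :=
  indFun_proj α g x

theorem indHom_comp (e f : A ≃⋆ₐ[ℂ] A) (hef : ∀ a, e (f a) = a) :
    (indHom (ω := ω) (fun _ : PUnit => e) PUnit.unit).comp (indHom (fun _ => f) PUnit.unit)
      = StarAlgHom.id ℂ (FA A ω) := by
  refine StarAlgHom.ext fun y => ?_
  obtain ⟨x, rfl⟩ := proj_surjective y
  rw [StarAlgHom.comp_apply, indHom_proj, indHom_proj, StarAlgHom.coe_id, id_eq]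
  congr 1
  refine Subtype.ext ?_
  obtain ⟨v, hv⟩ := cls_surjective (x : AOmega (Unitization ℂ A) ω)
  rw [cAct_coe, cAct_coe, ← hv, omegaMap_cls, omegaMap_cls]
  congr 1
  refine BoundedContinuousFunction.ext fun n => ?_
  rw [seqMap_apply, seqMap_apply]
  exact Unitization.ext (by rw [starMap_fst, starMap_fst])
    (by rw [starMap_snd, starMap_snd]; exact hef _)

/-- The automorphism of `F_ω(A)` induced by an automorphism of `A`. -/
def indEquiv (e : A ≃⋆ₐ[ℂ] A) : FA A ω ≃⋆ₐ[ℂ] FA A ω :=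
  StarAlgEquiv.ofStarAlgHom (indHom (fun _ : PUnit => e) PUnit.unit)
    (indHom (fun _ : PUnit => e.symm) PUnit.unit)
    (indHom_comp e.symm e e.symm_apply_apply) (indHom_comp e e.symm e.apply_symm_apply)

theorem indEquiv_proj (α : G → A ≃⋆ₐ[ℂ] A) (g : G) (x : CentralAlgebra ω (Unitization ℂ A)) :
    indEquiv (α g) (proj A ω x) = proj A ω (cAct α g x) :=
  indHom_proj _ _ x

/-- The induced action exists. -/
theorem exists_induced [Mul G] (α : G → A ≃⋆ₐ[ℂ] A) (hα : ∀ g h a, α (g * h) a = α g (α h a)) :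
    ∃ β : G → FA A ω ≃⋆ₐ[ℂ] FA A ω,
      IsInduced A ω α β ∧ ∀ g h y, β (g * h) y = β g (β h y) := by
  refine ⟨fun g => indEquiv (α g), fun g x y hy => ?_, fun g h y => ?_⟩
  · rw [indEquiv_proj]
    exact congrArg (proj A ω) (Subtype.ext (hy.trans (cAct_coe α g x).symm).symm)
  · obtain ⟨x, rfl⟩ := proj_surjective y
    simp only [indEquiv_proj]
    congr 1
    refine Subtype.ext ?_
    obtain ⟨v, hv⟩ := cls_surjective (x : AOmega (Unitization ℂ A) ω)
    rw [cAct_coe, cAct_coe, cAct_coe, ← hv, omegaMap_cls, omegaMap_cls, omegaMap_cls]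
    congr 1
    refine BoundedContinuousFunction.ext fun n => ?_
    rw [seqMap_apply, seqMap_apply, seqMap_apply]
    exact unitEquiv_mul hα g h _

end

end Vale.Agent.P095.All
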