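import Vale.Agent.P095.Equiv.OmegaDefs
import Vale.Agent.P095.All.Defs

/-!
# P095: commuting copies in a quotient of a central sequence algebra

Reindexing along suitable sequences gives copies that commute with each other and with the
originals and do not increase the norms of the products with `A`.
-/

namespace Vale.Agent.P095.All

open Filter Topology BoundedContinuousFunction TopologicalSpace Vale.Agent.P101.KR
  Vale.Agent.P095.Equiv Vale.Agent.P095.Amen
open scoped MultiplierAlgebra

noncomputable section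

/-- `p` is a quotient map on the central sequence algebra whose norm is read off on the products
with the constants `b l`, of size `w l`. -/
structure NormQuot {B F : Type} [CStarAlgebra B] [CStarAlgebra F] {ω : Ultrafilter ℕ}
    (p : CentralAlgebra ω B →⋆ₐ[ℂ] F) (b : ℕ → B) (w : ℕ → ℝ) : Prop where
  lift : ∀ y, ∃ x, p x = y ∧ ‖x‖ ≤ ‖y‖
  nonneg : ∀ l, 0 ≤ w l
  le : ∀ {x : CentralAlgebra ω B} {c : ℝ}, 0 ≤ c →
    (∀ l, ‖(x : AOmega B ω) * emb ω (b l)‖ ≤ c * w l) → ‖p x‖ ≤ c
  mul_le : ∀ (x : CentralAlgebra ω B) (l : ℕ), ‖(x : AOmega B ω) * emb ω (b l)‖ ≤ ‖p x‖ * w l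

/-- `f` is induced by `α` through `p`. -/
def InducedBy {G B F : Type} [CStarAlgebra B] [CStarAlgebra F] {ω : Ultrafilter ℕ}
    (p : CentralAlgebra ω B →⋆ₐ[ℂ] F) (α : G → B ≃⋆ₐ[ℂ] B) (f : G → F ≃⋆ₐ[ℂ] F) : Prop :=
  ∀ g (x y : CentralAlgebra ω B),
    (y : AOmega B ω) = omegaMap ω (α g).toStarAlgHom x.1 → f g (p x) = p y

section Generic

variable {B F : Type} [Ring B] [Algebra ℂ B] [StarRing B] [StarModule ℂ B] [CStarAlgebra F]

omit [StarModule ℂ B] in
/-- The closed algebra generated by images is approximated by images. -/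
theorem exists_approx_Cl (q : B →⋆ₐ[ℂ] F) {s : Set F} (hs : s ⊆ Set.range q) (x : Cl s) :
    ∃ u : ℕ → B, Tendsto (fun k => q (u k)) atTop (𝓝 (x : F)) := by
  have hle : Cl s ≤ q.range.topologicalClosure :=
    StarSubalgebra.topologicalClosure_mono (StarAlgebra.adjoin_le hs)
  have hmem := hle x.2
  rw [← SetLike.mem_coe, StarSubalgebra.topologicalClosure_coe, mem_closure_iff_seq_limit] at hmem
  obtain ⟨w, hw, hlim⟩ := hmem
  choose u hu using hw
  exact ⟨u, hlim.congr fun k => (hu k).symm⟩

omit [StarModule ℂ B] in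
/-- A map smaller in norm than `q` gives a map on the closed algebra generated by images of `q`. -/
theorem exists_map_of_le (q ψ : B →⋆ₐ[ℂ] F) (hle : ∀ t, ‖ψ t‖ ≤ ‖q t‖) {s : Set F}
    (hs : s ⊆ Set.range q) :
    ∃ ι : Cl s →⋆ₐ[ℂ] F, ∀ (x : Cl s) (u : ℕ → B),
      Tendsto (fun k => q (u k)) atTop (𝓝 (x : F)) →
      Tendsto (fun k => ψ (u k)) atTop (𝓝 (ι x)) := by
  choose t htlim using exists_approx_Cl q hs
  have hcauchy : ∀ x : Cl s, ∃ z : F, Tendsto (fun k => ψ (t x k)) atTop (𝓝 z) := fun x => by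
    refine cauchySeq_tendsto_of_complete (Metric.cauchySeq_iff.2 fun ε hε => ?_)
    obtain ⟨N, hN⟩ := Metric.cauchySeq_iff.1 (htlim x).cauchySeq ε hε
    refine ⟨N, fun m hm n hn => ?_⟩
    rw [dist_eq_norm, ← map_sub]
    refine (hle _).trans_lt ?_
    rw [map_sub, ← dist_eq_norm]
    exact hN m hm n hn
  choose z hz using hcauchy
  have uniq : ∀ (x : Cl s) (u : ℕ → B), Tendsto (fun k => q (u k)) atTop (𝓝 (x : F)) →
      Tendsto (fun k => ψ (u k)) atTop (𝓝 (z x)) := fun x u hlim => by
    have h0 : Tendsto (fun k => ψ (u k) - ψ (t x k)) atTop (𝓝 0) := by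
      refine squeeze_zero_norm (fun k => ?_)
        (tendsto_zero_iff_norm_tendsto_zero.1 (by simpa using hlim.sub (htlim x)))
      rw [← map_sub, ← map_sub]
      exact hle _
    simpa using h0.add (hz x)
  have zeq : ∀ (x : Cl s) (u : ℕ → B) {l : F}, Tendsto (fun k => q (u k)) atTop (𝓝 (x : F)) →
      Tendsto (fun k => ψ (u k)) atTop (𝓝 l) → z x = l := fun x u l h1 h2 =>
    tendsto_nhds_unique (uniq x u h1) h2
  refine ⟨
    { toFun := z
      map_one' := zeq 1 (fun _ => 1) (by simp) (by simp)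
      map_zero' := zeq 0 (fun _ => 0) (by simp) (by simp)
      map_mul' := fun x y => ?_
      map_add' := fun x y => ?_
      commutes' := fun r => ?_
      map_star' := fun x => ?_ }, uniq⟩
  · refine zeq _ (fun k => t x k * t y k) ?_ ?_
    · simp only [map_mul]; exact (htlim x).mul (htlim y)
    · simp only [map_mul]; exact (hz x).mul (hz y)
  · refine zeq _ (fun k => t x k + t y k) ?_ ?_
    · simp only [map_add]; exact (htlim x).add (htlim y)
    · simp only [map_add]; exact (hz x).add (hz y)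
  · refine zeq _ (fun _ => algebraMap ℂ B r) ?_ ?_
    · simp only [AlgHomClass.commutes]; exact tendsto_const_nhds
    · simp only [AlgHomClass.commutes]; exact tendsto_const_nhds
  · refine zeq _ (fun k => star (t x k)) ?_ ?_
    · simp only [map_star]; exact (continuous_star.tendsto _).comp (htlim x)
    · simp only [map_star]; exact (continuous_star.tendsto _).comp (hz x)

end Generic

section Reindex

variable {B : Type} [CStarAlgebra B] {ω : Ultrafilter ℕ}

/-- Reindexings commuting with each other and with the originals, keeping bounds on the products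
with countably many constants. -/
theorem exists_reindexesA [SeparableSpace B] (hω : (ω : Filter ℕ) ≤ cofinite) (d : ℕ → ℕ →ᵇ B)
    (hd : ∀ i, cls ω (d i) ∈ central B ω) (b : ℕ → B) (c : ℕ → ℕ → ℝ)
    (hdc : ∀ i l, ‖cls ω (d i) * emb ω (b l)‖ ≤ c i l) :
    ∃ φ : ℕ → ℕ → ℕ, ∀ k i, cls ω (reindex (φ k) (d i)) ∈ central B ω ∧
      (∀ l, ‖cls ω (reindex (φ k) (d i)) * emb ω (b l)‖ ≤ c i l) ∧
      (∀ j, Commute (cls ω (reindex (φ k) (d i))) (cls ω (d j))) ∧
      ∀ k', k ≠ k' → ∀ j,
        Commute (cls ω (reindex (φ k) (d i))) (cls ω (reindex (φ k') (d j))) := by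
  set a : ℕ → B := denseSeq B
  let C : ℕ → ℕ →ᵇ B := fun l => BoundedContinuousFunction.const ℕ (b l)
  have key : ∀ (n : ℕ) (prev : List ℕ), ∃ m : ℕ, ∀ i ≤ n,
      (∀ l ≤ n, ‖d i m * b l‖ < c i l + 1 / (n + 1 : ℝ)) ∧
      (∀ l ≤ n, ‖a l * d i m - d i m * a l‖ < 1 / (n + 1 : ℝ)) ∧
      ∀ j ≤ n, ∀ p ∈ prev, ‖d i m * d j p - d j p * d i m‖ < 1 / (n + 1 : ℝ) := by
    intro n prev
    have hpos : (0 : ℝ) < 1 / (n + 1 : ℝ) := by positivity
    refine (((Set.finite_Iic n).eventually_all (l := (ω : Filter ℕ))).2 fun i _ => ?_).exists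
    have hc := fun z : B => (cls_mem_central.1 (hd i) z).eventually (gt_mem_nhds hpos)
    refine Eventually.and ((Set.finite_Iic n).eventually_all.2 fun l _ => ?_) (Eventually.and ?_ ?_)
    · refine (tendsto_omegaNorm ω (d i * C l)).eventually (gt_mem_nhds ?_)
      rw [← norm_cls, map_mul]
      exact lt_add_of_le_of_pos (hdc i l) hpos
    · exact (Set.finite_Iic n).eventually_all.2 fun l _ => hc (a l)
    · refine (Set.finite_Iic n).eventually_all.2 fun j _ =>
        prev.finite_toSet.eventually_all.2 fun p _ => ?_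
      exact (hc (d j p)).mono fun m hm => by rwa [norm_sub_rev]
  choose pick hpick using key
  let L : ℕ → ℕ → List ℕ := fun n k => k.rec [n] fun _ l => l ++ [pick n l]
  have hself : ∀ n k, n ∈ L n k := fun n k => by
    induction k with
    | zero => exact List.mem_singleton_self n
    | succ k ih => exact List.mem_append_left _ ih
  have hmem : ∀ n k k', k' < k → pick n (L n k') ∈ L n k := by
    intro n k k' h
    induction k with
    | zero => omega
    | succ k ih =>
      show pick n (L n k') ∈ L n k ++ [pick n (L n k)]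
      rcases Nat.lt_succ_iff_lt_or_eq.1 h with h | h
      · exact List.mem_append_left _ (ih h)
      · exact List.mem_append_right _ (by simp [h])
  have hsmall : Tendsto (fun n : ℕ => 1 / (n + 1 : ℝ)) (ω : Filter ℕ) (𝓝 0) :=
    tendsto_one_div_add_atTop_nhds_zero_nat.mono_left (hω.trans Nat.cofinite_eq_atTop.le)
  have hcom : ∀ k (p : ℕ → ℕ), (∀ n, p n ∈ L n k) → ∀ i j,
      Commute (cls ω (reindex (fun n => pick n (L n k)) (d i))) (cls ω (reindex p (d j))) := by
    intro k p hp i j
    show cls ω _ * cls ω _ = cls ω _ * cls ω _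
    rw [← map_mul, ← map_mul, cls_eq_iff]
    refine squeeze_zero' (Eventually.of_forall fun _ => norm_nonneg _) ?_ hsmall
    filter_upwards [eventually_fine hω i, eventually_fine hω j] with n hn hjn
    exact ((hpick n (L n k) i hn).2.2 j hjn _ (hp n)).le
  refine ⟨fun k n => pick n (L n k), fun k i => ⟨?_, fun l => ?_, fun j => ?_, fun k' hk j => ?_⟩⟩
  · rw [mem_central]
    intro z
    set w := cls ω (reindex (fun n => pick n (L n k)) (d i))
    have hc : Continuous (emb (A := B) ω) :=
      AddMonoidHomClass.continuous_of_bound (emb (A := B) ω) 1 fun y => by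
        simpa using NonUnitalStarAlgHom.norm_apply_le (emb (A := B) ω) y
    refine congrFun ((denseRange_denseSeq B).equalizer (hc.fun_mul continuous_const)
      (continuous_const.fun_mul hc) (funext fun l => ?_)) z
    show cls ω _ * cls ω _ = cls ω _ * cls ω _
    rw [← map_mul, ← map_mul, cls_eq_iff]
    refine squeeze_zero' (Eventually.of_forall fun _ => norm_nonneg _) ?_ hsmall
    filter_upwards [eventually_fine hω i, eventually_fine hω l] with n hn hln
    exact ((hpick n (L n k) i hn).2.1 l hln).le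
  · show ‖cls ω _ * cls ω (C l)‖ ≤ _
    rw [← map_mul, norm_cls]
    refine le_of_forall_pos_le_add fun ε hε => le_of_tendsto (tendsto_omegaNorm ω _) ?_
    filter_upwards [eventually_fine hω i, eventually_fine hω l,
      hsmall.eventually (gt_mem_nhds hε)] with n hn hln hs
    exact (((hpick n (L n k) i hn).1 l hln).trans (by linarith)).le
  · exact hcom k id (fun n => hself n k) i j
  · rcases lt_or_gt_of_ne hk with h | h
    · exact (hcom k' _ (fun n => hmem n k' k h) j i).symm
    · exact hcom k _ (fun n => hmem n k k' h) i j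

end Reindex

variable {B F : Type} [CStarAlgebra B] [CStarAlgebra F] {ω : Ultrafilter ℕ} {G : Type} [Group G]
  [Countable G]

/-- Such a quotient has copies of its separable subalgebras commuting with each other and with the
originals, and compatible with an induced action. -/
theorem exists_copies_quot [SeparableSpace B] (hω : (ω : Filter ℕ) ≤ cofinite)
    {p : CentralAlgebra ω B →⋆ₐ[ℂ] F} {b : ℕ → B} {w : ℕ → ℝ} (hp : NormQuot p b w)
    {α : G → B ≃⋆ₐ[ℂ] B} (hα : ∀ g h a, α (g * h) a = α g (α h a))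
    {β : G → F ≃⋆ₐ[ℂ] F} (hβ : InducedBy p α β) {s : Set F} (hs : s.Countable) :
    ∃ κ : ℕ → Cl s →⋆ₐ[ℂ] F, (∀ i j, i ≠ j → ∀ a b, Commute (κ i a) (κ j b)) ∧
      (∀ i (x y : Cl s), Commute (κ i x) (y : F)) ∧
      ∀ i g (x y : Cl s), β g x = y → β g (κ i x) = κ i y := by
  classical
  choose lz hlz hlzn using hp.lift
  choose lift hlift using fun y => cls_surjective (ω := ω) (lz y).1
  let act : G → (ℕ →ᵇ B) →⋆ₐ[ℂ] (ℕ →ᵇ B) := fun g =>
    seqMap (α g).toStarAlgHom
  have hact : ∀ g h t, act (g * h) t = act g (act h t) := fun g h t =>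
    BoundedContinuousFunction.ext fun n => hα g h (t n)
  set L : Set (ℕ →ᵇ B) := lift '' s ∪ ⋃ g, act g '' (lift '' s) with hLdef
  have hLc : L.Countable :=
    (hs.image lift).union (Set.countable_iUnion fun g => (hs.image lift).image _)
  set T := StarAlgebra.adjoin ℂ L with hT
  have hTc : ∀ t : T, cls ω t.1 ∈ central B ω := by
    have hle : T ≤ (central B ω).comap (cls ω) := StarAlgebra.adjoin_le (by
      rintro t (⟨z, -, rfl⟩ | ht)
      · show cls ω (lift z) ∈ central B ω
        rw [hlift]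
        exact (lz z).2
      · obtain ⟨g, u, ⟨z, -, rfl⟩, rfl⟩ := Set.mem_iUnion.1 ht
        show cls ω (seqMap _ _) ∈ central B ω
        rw [← omegaMap_cls, hlift]
        exact omegaMap_central ω (α g) (lz z))
    exact fun t => hle t.2
  have hinv : ∀ g, ∀ t ∈ T, act g t ∈ T := by
    intro g
    have hle : T ≤ T.comap (act g) := StarAlgebra.adjoin_le (by
      rintro t (ht | ht)
      · exact StarAlgebra.subset_adjoin ℂ L (Or.inr (Set.mem_iUnion.2 ⟨g, t, ht, rfl⟩))
      · obtain ⟨h, u, hu, rfl⟩ := Set.mem_iUnion.1 ht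
        exact StarAlgebra.subset_adjoin ℂ L
          (Or.inr (Set.mem_iUnion.2 ⟨g * h, u, hu, hact g h u⟩)))
    exact fun t ht => hle ht
  have : SeparableSpace T := (isSeparable_adjoin hLc).separableSpace
  let d : ℕ → T := denseSeq T
  let qT : T →⋆ₐ[ℂ] CentralAlgebra ω B :=
    ((cls ω).comp T.subtype).codRestrict (central B ω) hTc
  let q : T →⋆ₐ[ℂ] F := p.comp qT
  obtain ⟨φ, hφ⟩ := exists_reindexesA hω (fun i => (d i).1) (fun i => hTc (d i))
    b (fun i l => ‖q (d i)‖ * w l) (fun i l => hp.mul_le (qT (d i)) l)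
  let ψ : ℕ → T → AOmega B ω := fun k t => cls ω (reindex (φ k) t.1)
  have hψc : ∀ k, Continuous (ψ k) := fun k =>
    (continuous_cls.comp (continuous_reindex (φ k))).comp continuous_subtype_val
  have hcen : ∀ k t, ψ k t ∈ central B ω := fun k t =>
    (denseRange_denseSeq T).induction_on t (isClosed_central.preimage (hψc k))
      fun i => (hφ k i).1
  let ψz : ℕ → T →⋆ₐ[ℂ] CentralAlgebra ω B := fun k =>
    (((cls ω).comp (reindex (φ k))).comp T.subtype).codRestrict (central B ω)
      (hcen k)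
  have hqc : Continuous q := by
    have h1 : Continuous p := AddMonoidHomClass.continuous_of_bound p 1 fun z => by
      simpa using NonUnitalStarAlgHom.norm_apply_le p z
    exact h1.comp ((continuous_cls.comp continuous_subtype_val).subtype_mk hTc)
  have hle : ∀ k t, ‖p.comp (ψz k) t‖ ≤ ‖q t‖ := fun k t => by
    refine hp.le (norm_nonneg _) fun l => ?_
    exact (denseRange_denseSeq T).induction_on t
      (isClosed_le ((hψc k).fun_mul continuous_const).norm (hqc.norm.fun_mul continuous_const))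
      fun i => (hφ k i).2.1 l
  have hown : ∀ k t u, Commute (ψ k t) (cls ω (Subtype.val (p := (· ∈ T)) u)) := fun k t =>
    fun u => (denseRange_denseSeq T).induction_on₂
      (p := fun t u => Commute (ψ k t) (cls ω (Subtype.val (p := (· ∈ T)) u)))
      (isClosed_eq
        (((hψc k).comp continuous_fst).fun_mul
          ((continuous_cls.comp continuous_subtype_val).comp continuous_snd))
        (((continuous_cls.comp continuous_subtype_val).comp continuous_snd).fun_mul
          ((hψc k).comp continuous_fst)))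
      (fun i j => (hφ k i).2.2.1 j) t u
  have hpair : ∀ k k', k ≠ k' → ∀ t u, Commute (ψ k t) (ψ k' u) := fun k k' hk t u =>
    (denseRange_denseSeq T).induction_on₂ (p := fun t u => Commute (ψ k t) (ψ k' u))
      (isClosed_eq (((hψc k).comp continuous_fst).fun_mul ((hψc k').comp continuous_snd))
        (((hψc k').comp continuous_snd).fun_mul ((hψc k).comp continuous_fst)))
      (fun i j => (hφ k i).2.2.2 k' hk j) t u
  have hsq : s ⊆ Set.range q := fun z hz =>
    ⟨⟨lift z, StarAlgebra.subset_adjoin ℂ L (Or.inl ⟨z, hz, rfl⟩)⟩, by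
      show p (qT _) = z
      rw [show qT ⟨lift z, _⟩ = lz z from Subtype.ext (hlift z)]
      exact hlz z⟩
  choose κ hκ using fun k => exists_map_of_le q (p.comp (ψz k)) (hle k) hsq
  refine ⟨κ, fun i j hij x y => ?_, fun i x y => ?_, fun i g x y hxy => ?_⟩
  · obtain ⟨u, hu⟩ := exists_approx_Cl q hsq x
    obtain ⟨w, hw⟩ := exists_approx_Cl q hsq y
    refine tendsto_nhds_unique ((hκ i x u hu).mul (hκ j y w hw))
      (((hκ j y w hw).mul (hκ i x u hu)).congr fun k => ?_)
    have h : Commute (ψz i (u k)) (ψz j (w k)) := Subtype.ext (hpair i j hij (u k) (w k))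
    exact (h.map p).symm
  · obtain ⟨u, hu⟩ := exists_approx_Cl q hsq x
    obtain ⟨w, hw⟩ := exists_approx_Cl q hsq y
    refine tendsto_nhds_unique ((hκ i x u hu).mul hw) ((hw.mul (hκ i x u hu)).congr fun k => ?_)
    have h : Commute (ψz i (u k)) (qT (w k)) := Subtype.ext (hown i (u k) (w k))
    exact (h.map p).symm
  · obtain ⟨u, hu⟩ := exists_approx_Cl q hsq x
    let u' : ℕ → T := fun k => ⟨act g (u k).1, hinv g _ (u k).2⟩
    have hc : Continuous (β g) := AddMonoidHomClass.continuous_of_bound (β g) 1 fun w => by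
      simpa using NonUnitalStarAlgHom.norm_apply_le (β g) w
    have hy : Tendsto (fun k => q (u' k)) atTop (𝓝 (y : F)) := by
      rw [← hxy]
      refine ((hc.tendsto _).comp hu).congr fun k => ?_
      exact hβ g (qT (u k)) (qT (u' k)) (omegaMap_cls ω _ _).symm
    refine tendsto_nhds_unique ((hc.tendsto _).comp (hκ i x u hu)) ((hκ i y u' hy).congr fun k => ?_)
    refine (hβ g (ψz i (u k)) (ψz i (u' k)) ?_).symm
    show cls ω (reindex (φ i) (act g (u k).1)) = omegaMap ω _ (cls ω (reindex (φ i) (u k).1))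
    rw [omegaMap_cls]
    rfl

/-- The copies as `Copies'`. -/
theorem copies'_quot [SeparableSpace B] (hω : (ω : Filter ℕ) ≤ cofinite)
    {p : CentralAlgebra ω B →⋆ₐ[ℂ] F} {b : ℕ → B} {w : ℕ → ℝ} (hp : NormQuot p b w)
    {α : G → B ≃⋆ₐ[ℂ] B} (hα : ∀ g h a, α (g * h) a = α g (α h a))
    {β : G → F ≃⋆ₐ[ℂ] F} (hβ : InducedBy p α β) {s : Set F} (hs : s.Countable) :
    Nonempty (Copies' β s ℕ) := by
  obtain ⟨κ, h₁, -, h₃⟩ := exists_copies_quot hω hp hα hβ hs
  exact ⟨⟨κ, h₁, h₃⟩⟩

omit [Group G] [Countable G] in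
/-- Without an action. -/
theorem copies_quot [SeparableSpace B] (hω : (ω : Filter ℕ) ≤ cofinite)
    {p : CentralAlgebra ω B →⋆ₐ[ℂ] F} {b : ℕ → B} {w : ℕ → ℝ} (hp : NormQuot p b w) :
    HasCopies F ∧ HasCentralCopy F := by
  have hi : InducedBy p (fun _ : PUnit => StarAlgEquiv.refl ℂ B) fun _ => StarAlgEquiv.refl ℂ F := by
    intro g x y hy
    have hxy : y = x := by
      refine Subtype.ext (hy.trans ?_)
      obtain ⟨v, hv⟩ := cls_surjective (x : AOmega B ω)
      rw [← hv, omegaMap_cls]
      rfl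
    rw [hxy]
    rfl
  refine ⟨fun s hs m => ?_, fun s hs => ?_⟩ <;>
    obtain ⟨κ, h₁, h₂, -⟩ := exists_copies_quot hω hp (G := PUnit) (fun _ _ _ => rfl) hi hs
  · exact ⟨⟨fun i => κ i, fun i j hij => h₁ i j fun e => hij (Fin.ext e)⟩⟩
  · exact ⟨κ 0, h₂ 0⟩

end

end Vale.Agent.P095.All
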