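import Vale.Agent.P095.All.FA.Props.Induced
import Vale.Agent.P095.All.FA.Props.Quot

/-!
# P095: commuting copies in `F_ω(A)`, compatible with an induced action
-/

namespace Vale.Agent.P095.All

open Filter Topology TopologicalSpace Vale.Agent.P101.KR Vale.Agent.P095.Amen
open scoped MultiplierAlgebra

noncomputable section

variable {A : Type} [NonUnitalCStarAlgebra A] {ω : Ultrafilter ℕ}

/-- `proj` is such a quotient map. -/
theorem normQuot_proj [SeparableSpace A] :
    NormQuot (proj A ω) (fun l => (denseSeq A l : Unitization ℂ A)) (fun l => ‖denseSeq A l‖) :=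
  ⟨exists_lift, fun _ => norm_nonneg _,
    fun hc h => norm_proj_le_of_dense hc (denseRange_denseSeq A) h,
    fun x _ => norm_mul_embA_le x _⟩

theorem IsInduced.inducedBy {G : Type} {α : G → A ≃⋆ₐ[ℂ] A} {β : G → FA A ω ≃⋆ₐ[ℂ] FA A ω}
    (h : IsInduced A ω α β) : InducedBy (proj A ω) (fun g => unitEquiv (α g)) β := by
  intro g x y hy
  exact h g x y (hy.trans (by rw [unitEquiv_hom]))

variable {G : Type} [Group G] [Countable G]

/-- Equivariant copies. -/
theorem copies'_FA [SeparableSpace A] (hω : (ω : Filter ℕ) ≤ cofinite)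
    {α : G → A ≃⋆ₐ[ℂ] A} (hα : ∀ g h a, α (g * h) a = α g (α h a))
    {β : G → FA A ω ≃⋆ₐ[ℂ] FA A ω} (hβ : IsInduced A ω α β) {s : Set (FA A ω)}
    (hs : s.Countable) : Nonempty (Copies' β s ℕ) :=
  copies'_quot (p := proj A ω) hω normQuot_proj (unitEquiv_mul hα) hβ.inducedBy hs

/-- `F_ω(A)` has commuting copies. -/
theorem hasCopies_FA [SeparableSpace A] (hω : (ω : Filter ℕ) ≤ cofinite) : HasCopies (FA A ω) :=
  (copies_quot hω (normQuot_proj (A := A))).1

/-- Separable subalgebras of `F_ω(A)` have copies commuting with them. -/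
theorem hasCentralCopy_FA [SeparableSpace A] (hω : (ω : Filter ℕ) ≤ cofinite) :
    HasCentralCopy (FA A ω) :=
  (copies_quot hω (normQuot_proj (A := A))).2

end

end Vale.Agent.P095.All
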