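import Vale.Agent.P095.All.FA.Props.Proj
import Vale.Agent.P095.All.NonUnital
import Vale.Agent.P101.KR.Main

/-!
# P095: the relations of `Z_{2,3}` exclude characters of `F_ω(A)`
-/

namespace Vale.Agent.P095.All

open Filter Topology BoundedContinuousFunction Vale.Agent.P101.KR
open scoped MultiplierAlgebra

noncomputable section

variable {A : Type} [NonUnitalCStarAlgebra A] {ω : Ultrafilter ℕ}

theorem norm_unit_inr_mul (x a : A) :
    ‖(x : Unitization ℂ A) * (a : Unitization ℂ A)‖ = ‖x * a‖ := by
  rw [← Unitization.inr_mul, Unitization.norm_inr]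

/-- A central sequence in `A` gives a central element. -/
theorem exists_centralSeq_cls {x : ℕ → A} (hx : IsCentralSeq ω x) :
    ∃ (v : ℕ →ᵇ Unitization ℂ A) (z : CentralAlgebra ω (Unitization ℂ A)),
      (∀ n, v n = (x n : Unitization ℂ A)) ∧ cls ω v = (z : AOmega (Unitization ℂ A) ω) := by
  obtain ⟨⟨C, hC⟩, hcen⟩ := hx
  let v : ℕ →ᵇ Unitization ℂ A := BoundedContinuousFunction.ofNormedAddCommGroup
    (fun n => (x n : Unitization ℂ A)) continuous_of_discreteTopology C fun n => by
      rw [Unitization.norm_inr]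
      exact hC n
  refine ⟨v, ⟨cls ω v, cls_mem_central.2 fun z => (hcen z.snd).congr fun n => ?_⟩,
    fun n => rfl, rfl⟩
  show _ = ‖z * (x n : Unitization ℂ A) - (x n : Unitization ℂ A) * z‖
  rw [← Unitization.norm_inr (𝕜 := ℂ) (x n * z.snd - z.snd * x n),
    norm_sub_rev]
  congr 1
  induction z using Unitization.ind with
  | inl_add_inr r a =>
    simp only [Unitization.snd_add, Unitization.snd_inl, Unitization.snd_inr, zero_add, add_mul,
      mul_add, Unitization.inl_mul_inr, Unitization.inr_mul_inl, Unitization.inr_mul,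
      Unitization.inr_sub]
    abel

/-- Products with `A` agree when they do so along `ω`. -/
theorem eq_of_tendsto {F : Type} [CStarAlgebra F]
    {p : CentralAlgebra ω (Unitization ℂ A) →⋆ₐ[ℂ] F}
    (hp : ∀ z z', (∀ a : A, (z : CentralAlgebra ω (Unitization ℂ A)).1 * embA A ω a =
      (z' : CentralAlgebra ω (Unitization ℂ A)).1 * embA A ω a) → p z = p z')
    {u u' : ℕ →ᵇ Unitization ℂ A} {z z' : CentralAlgebra ω (Unitization ℂ A)} (hu : cls ω u = (z : AOmega (Unitization ℂ A) ω))
    (hu' : cls ω u' = (z' : AOmega (Unitization ℂ A) ω))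
    (h : ∀ a : A, Tendsto (fun n => ‖u n * (a : Unitization ℂ A) - u' n * (a : Unitization ℂ A)‖)
      (ω : Filter ℕ) (𝓝 0)) : p z = p z' := by
  refine hp _ _ fun a => ?_
  rw [← hu, ← hu']
  show cls ω u * cls ω (BoundedContinuousFunction.const ℕ (a : Unitization ℂ A)) =
    cls ω u' * cls ω (BoundedContinuousFunction.const ℕ (a : Unitization ℂ A))
  rw [← map_mul, ← map_mul, cls_eq_iff]
  exact h a

/-- The drop relations exclude characters of a quotient on which they become equations. -/
theorem noCharacter_of_dropRelations {F : Type} [CStarAlgebra F]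
    (p : CentralAlgebra ω (Unitization ℂ A) →⋆ₐ[ℂ] F)
    (hp : ∀ z z', (∀ a : A, (z : CentralAlgebra ω (Unitization ℂ A)).1 * embA A ω a =
      (z' : CentralAlgebra ω (Unitization ℂ A)).1 * embA A ω a) → p z = p z')
    (h : HasDropRelations A ω) : NoCharacter F := by
  classical
  obtain ⟨P, c, v, hP, hc, hv, hstar, hmul, hpos, hunit, hfix⟩ := h
  choose uP zP euP hzP using fun a b => exists_centralSeq_cls (hP a b)
  choose uc zc euc hzc using fun a => exists_centralSeq_cls (hc a)
  obtain ⟨uv, zv, euv, hzv⟩ := exists_centralSeq_cls hv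
  have eq_of : ∀ {z z' : CentralAlgebra ω (Unitization ℂ A)} (u u' : ℕ →ᵇ Unitization ℂ A)
      (x y : ℕ → A), cls ω u = (z : AOmega (Unitization ℂ A) ω) →
      cls ω u' = (z' : AOmega (Unitization ℂ A) ω) → (∀ n, u n = (x n : Unitization ℂ A)) →
      (∀ n, u' n = (y n : Unitization ℂ A)) → ActEq ω x y → p z = p z' :=
    fun u u' x y hu hu' ex ey hxy => eq_of_tendsto hp hu hu' fun a => (hxy a).congr fun n => by
      rw [ex, ey, ← Unitization.inr_mul, ← Unitization.inr_mul, ← Unitization.inr_sub,
        Unitization.norm_inr]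
  refine DropData.noCharacter
    { P := fun a b => p (zP a b)
      v := p zv
      orderZero := ⟨fun a b => ?_, fun a b a' b' => ?_, fun a => ⟨p (zc a), ?_⟩⟩
      star_mul_v := ?_
      fix_v := ?_ }
  · rw [← map_star]
    exact eq_of (star (uP a b)) (uP b a) _ _ (by rw [map_star, hzP]; rfl) (hzP b a)
      (fun n => by simp [euP, Unitization.inr_star]) (euP b a) (hstar a b)
  · rw [← map_mul]
    by_cases hb : b = a'
    · rw [if_pos hb, show diag (fun a b => p (zP a b)) * p (zP a b') =
        p ((zP 0 0 + zP 1 1) * zP a b') by rw [map_mul, map_add]; rfl]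
      refine eq_of (uP a b * uP a' b') ((uP 0 0 + uP 1 1) * uP a b') _ _
        (by rw [map_mul, hzP, hzP]; rfl) (by rw [map_mul, map_add, hzP, hzP, hzP]; rfl)
        (fun n => ?_) (fun n => ?_) (hmul a b a' b')
      · simp [euP, Unitization.inr_mul]
      · simp [if_pos hb, euP, Fin.sum_univ_two, Unitization.inr_mul, Unitization.inr_add]
    · rw [if_neg hb, ← map_zero p]
      refine eq_of (uP a b * uP a' b') 0 _ _ (by rw [map_mul, hzP, hzP]; rfl)
        (by rw [map_zero]; rfl) (fun n => ?_) (fun n => ?_) (hmul a b a' b')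
      · simp [euP, Unitization.inr_mul]
      · simp [if_neg hb]
  · rw [← map_star, ← map_mul]
    exact eq_of (uP a a) (star (uc a) * uc a) _ _ (hzP a a)
      (by rw [map_mul, map_star, hzc]; rfl) (euP a a)
      (fun n => by simp [euc, Unitization.inr_mul, Unitization.inr_star]) (hpos a)
  · rw [eq_sub_iff_add_eq, diag, ← map_star, ← map_mul, ← map_add, ← map_add,
      ← map_one p]
    refine eq_of_tendsto hp (u := star uv * uv + (uP 0 0 + uP 1 1)) (u' := 1)
      (by rw [map_add, map_add, map_mul, map_star, hzv, hzP, hzP]; rfl) (by rw [map_one]; rfl)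
      fun a => (hunit a).congr fun n => ?_
    rw [← Unitization.norm_inr (𝕜 := ℂ) ((star (v n) * v n + (P 0 0 n + P 1 1 n)) * a - a)]
    simp [euv, euP, Unitization.inr_mul, Unitization.inr_add, Unitization.inr_sub,
      Unitization.inr_star]
  · rw [← map_mul]
    exact eq_of (uP 0 0 * uv) uv _ _ (by rw [map_mul, hzP, hzv]; rfl) hzv
      (fun n => by simp [euP, euv, Unitization.inr_mul]) euv hfix

/-- The drop relations exclude characters of `F_ω(A)`. -/
theorem noCharacter_FA (h : HasDropRelations A ω) : NoCharacter (FA A ω) :=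
  noCharacter_of_dropRelations (proj A ω) (fun _ _ => proj_eq_iff.2) h

end

end Vale.Agent.P095.All
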