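import Vale.Agent.P095.All.FA.Props.Saturate
import Vale.Agent.P101.Bridge.AllDrops
import Vale.Agent.P101.KR.DropBridge

/-!
# P095: fixed maps from fixed algebras without characters
-/

namespace Vale.Agent.P095.All

open Filter Topology TopologicalSpace Vale.Agent.P101.KR Vale.Agent.P101.Bridge
  Vale.Agent.P095.Amen

noncomputable section

variable {F : Type} [CStarAlgebra F] {G : Type}

theorem mem_fixedAll_iff {β : G → F ≃⋆ₐ[ℂ] F} {x : F} : x ∈ fixedAll β ↔ ∀ g, β g x = x := by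
  simp only [fixedAll, StarSubalgebra.mem_iInf]
  exact Iff.rfl

theorem isClosed_fixedAll (β : G → F ≃⋆ₐ[ℂ] F) : IsClosed (fixedAll β : Set F) := by
  have e : (fixedAll β : Set F) = ⋂ g, {x | β g x = x} := by
    ext x
    simp [mem_fixedAll_iff]
  rw [e]
  exact isClosed_iInter fun g => isClosed_eq (AddMonoidHomClass.continuous_of_bound (β g) 1
    fun y => by simpa using NonUnitalStarAlgHom.norm_apply_le (β g) y) continuous_id

/-- Equivariant copies give copies in the fixed algebra. -/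
theorem hasCopies_fixedAll (β : G → F ≃⋆ₐ[ℂ] F)
    (hcop : ∀ s : Set F, s.Countable → Nonempty (Copies' β s ℕ))
    [IsClosed (fixedAll β : Set F)] : HasCopies (fixedAll β) := by
  intro s hs m
  set s' : Set F := Subtype.val '' s
  obtain ⟨κ⟩ := hcop s' (hs.image _)
  have hle : Cl s ≤ (Cl s').comap (fixedAll β).subtype :=
    StarSubalgebra.topologicalClosure_minimal (StarAlgebra.adjoin_le fun z hz =>
      StarSubalgebra.le_topologicalClosure _ (StarAlgebra.subset_adjoin ℂ s' ⟨z, hz, rfl⟩))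
      ((isClosed_Cl s').preimage continuous_subtype_val)
  let incl : Cl s →⋆ₐ[ℂ] Cl s' :=
    ((fixedAll β).subtype.comp (Cl s).subtype).codRestrict (Cl s') fun x => hle x.2
  have hfix : ∀ (i : ℕ) (x : Cl s), (κ.hom i).comp incl x ∈ fixedAll β := fun i x =>
    mem_fixedAll_iff.2 fun g => κ.equiv i g (incl x) (incl x) (mem_fixedAll_iff.1 x.1.2 g)
  exact ⟨⟨fun i => ((κ.hom i).comp incl).codRestrict _ (hfix i), fun i j hij a b =>
    Subtype.ext (κ.comm i j (fun e => hij (Fin.ext e)) _ _)⟩⟩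

/-- Local maps from `D` into an algebra without characters fixed by the action. -/
theorem localMap_fixedAll (β : G → F ≃⋆ₐ[ℂ] F)
    (hcop : ∀ s : Set F, s.Countable → Nonempty (Copies' β s ℕ))
    (hno : IsEmpty (fixedAll β →⋆ₐ[ℂ] ℂ)) {D : Type} [CStarAlgebra D] (hD : IsJiangSu D)
    (P : Finset D) {ε : ℝ} (hε : 0 < ε) :
    ∃ S : StarSubalgebra ℂ D, IsClosed (S : Set D) ∧
      (∃ ρ : S →⋆ₐ[ℂ] F, ∀ g y, β g (ρ y) = ρ y) ∧ ∀ x ∈ P, ∃ y ∈ S, ‖x - y‖ ≤ ε := by
  obtain ⟨n, hne, hn, ι, hι, hG⟩ := hD.locallyDrop P ε hε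
  have : IsClosed (fixedAll β : Set F) := isClosed_fixedAll β
  obtain ⟨d⟩ := allDrops_of (fixedAll β) (hasCopies_fixedAll β hcop) hno n hn
  obtain ⟨f⟩ := dropHom_of n (fixedAll β) d
  refine ⟨ι.range, (NonUnitalStarAlgHom.isometry ι hι).isClosedEmbedding.isClosed_range,
    ⟨(fixedAll β).subtype.comp (f.comp (StarAlgEquiv.ofInjective ι hι).symm.toStarAlgHom),
      fun g y => mem_fixedAll_iff.1 (f ((StarAlgEquiv.ofInjective ι hι).symm y)).2 g⟩,
    fun x hx => ?_⟩
  obtain ⟨y, hy⟩ := hG x hx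
  exact ⟨ι y, ⟨y, rfl⟩, hy⟩

variable {B : Type} [CStarAlgebra B] {ω : Ultrafilter ℕ}

/-- Fixed algebras without characters, for all finitely generated subgroups, give a fixed map. -/
theorem fixedMap_quot [Group G] [Countable G] [SeparableSpace B]
    (hω : (ω : Filter ℕ) ≤ cofinite) {p : CentralAlgebra ω B →⋆ₐ[ℂ] F} {b : ℕ → B} {w : ℕ → ℝ}
    (hp : NormQuot p b w) {α : G → B ≃⋆ₐ[ℂ] B} (hα : ∀ g h a, α (g * h) a = α g (α h a))
    {β : G → F ≃⋆ₐ[ℂ] F} (hβ : InducedBy p α β)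
    (hno : ∀ H : Subgroup G, H.FG → IsEmpty (fixedAll (fun h : H => β h) →⋆ₐ[ℂ] ℂ))
    {D : Type} [CStarAlgebra D] (hD : IsJiangSu D) :
    ∃ ψ : D →⋆ₐ[ℂ] F, ∀ g d, β g (ψ d) = ψ d := by
  have := hD.separable
  refine localFixed_quot hω hp hβ fun T P ε hε => ?_
  set H := Subgroup.closure (T : Set G)
  obtain ⟨S, hS, ⟨ρ, hρ⟩, hP⟩ := localMap_fixedAll (fun h : H => β h)
    (fun s hs => copies'_quot hω hp (α := fun h : H => α h) (fun g h => hα g h)
      (fun g => hβ (g : G)) hs) (hno H ⟨T, rfl⟩) hD P hε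
  exact ⟨S, hS, ⟨ρ, fun g hg y => hρ ⟨g, Subgroup.subset_closure hg⟩ y⟩, hP⟩

/-- The setting of a finitely generated amenable group. -/
theorem setting_quot {H : Type} [Group H] [Countable H] [SeparableSpace B]
    (hω : (ω : Filter ℕ) ≤ cofinite) {p : CentralAlgebra ω B →⋆ₐ[ℂ] F} {b : ℕ → B} {w : ℕ → ℝ}
    (hp : NormQuot p b w) {α : H → B ≃⋆ₐ[ℂ] B} (hα : ∀ g h a, α (g * h) a = α g (α h a))
    {β : H → F ≃⋆ₐ[ℂ] F} (hβ : InducedBy p α β) (hmul : ∀ g h x, β (g * h) x = β g (β h x))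
    (S : Finset H) (ham : IsAmenable H) (hgen : Subgroup.closure (S : Set H) = ⊤)
    (hno : NoCharacter F) (hT : TraceDim F) : Setting β S where
  amenable := ham
  gen := hgen
  mul := hmul
  noChar := hno
  copies _ hs _ := copies'_quot hω hp hα hβ hs
  central := (copies_quot hω hp).2
  saturated := saturated'_quot hω hp hβ hmul S hgen
  traceDim := hT

end

end Vale.Agent.P095.All
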