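import Vale.Agent.P095.All.FA.Targets
import Vale.Agent.P095.All.FA.Props.Copies
import Vale.Agent.P095.All.FA.Props.Fixed
import Vale.Agent.P095.All.FA.Props.DropRelations

/-!
# P095: the properties of `F_ω(A)`

`faSetting_of` gives the induced action and its setting, `fixedMapFA_of` the fixed map from local
fixed algebras without characters.
-/

namespace Vale.Agent.P095.All

open TopologicalSpace Vale.Agent.P101.KR Vale.Agent.P101.Bridge

noncomputable section

theorem unitEquiv_mul_subgroup {A G : Type} [NonUnitalCStarAlgebra A] [Group G]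
    {α : G → A ≃⋆ₐ[ℂ] A} (hα : ∀ g h a, α (g * h) a = α g (α h a)) (H : Subgroup G) (g h : H)
    (x : Unitization ℂ A) :
    unitEquiv (α (g * h : H)) x = unitEquiv (α g) (unitEquiv (α h) x) :=
  unitEquiv_mul hα (g : G) h x

/-- The induced action gives a setting for every finitely generated amenable subgroup. -/
theorem faSetting_of : FASettingTarget := by
  intro G _ _ A _ _ ω hω hdrop α hα
  obtain ⟨β, hβ, hmul⟩ := exists_induced (ω := ω) α hα
  refine ⟨noCharacter_FA hdrop, β, hβ, hmul, fun H S ham hgen hT => ?_⟩
  exact setting_quot (p := proj A ω) (α := fun h : H => unitEquiv (α h)) hω normQuot_proj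
    (unitEquiv_mul_subgroup hα H) (hβ.restrict (fun h : H => (h : G))).inducedBy
    (fun g h x => hmul g h x) S ham hgen (noCharacter_FA hdrop) hT

/-- Fixed algebras without characters give a fixed map from `D`. -/
theorem fixedMapFA_of : FixedMapFATarget := by
  intro G _ _ A _ _ ω hω _ α hα β hβ hno D _ hD
  exact fixedMap_quot (p := proj A ω) (α := fun g => unitEquiv (α g)) hω normQuot_proj
    (unitEquiv_mul hα) hβ.inducedBy hno hD

end

end Vale.Agent.P095.All
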