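import Vale.Agent.P095.All.TraceDim.Acts

/-!
# P095: the quotient map onto `F_ω(A)`

`proj A ω` is surjective, elements lift without increasing the norm, and norms and zeros are read
off on the products with `A`.
-/

namespace Vale.Agent.P095.All

open Filter Topology BoundedContinuousFunction TopologicalSpace Vale.Agent.P101.KR
open scoped MultiplierAlgebra

noncomputable section

section Generic

variable {B B' : Type} [CStarAlgebra B] [CStarAlgebra B'] (φ : B →⋆ₐ[ℂ] B')

/-- Elements of the range of a `*`-homomorphism have preimages of the same norm. -/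
theorem exists_preimage_norm_le (x₀ : B) : ∃ x, φ x = φ x₀ ∧ ‖x‖ ≤ ‖φ x₀‖ := by
  let _ : PartialOrder B := CStarAlgebra.spectralOrder B
  have : StarOrderedRing B := CStarAlgebra.spectralOrderedRing B
  rcases (norm_nonneg (φ x₀)).eq_or_lt with h0 | hc
  · exact ⟨0, by rw [map_zero, norm_eq_zero.1 h0.symm], by rw [norm_zero, ← h0]⟩
  set c := ‖φ x₀‖
  have : Nontrivial B' := ⟨φ x₀, 0, norm_pos_iff.1 hc⟩
  set f : ℝ → ℝ := fun t => c / Real.sqrt (max t (c ^ 2))
  have hpos : ∀ t, 0 < Real.sqrt (max t (c ^ 2)) := fun t =>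
    Real.sqrt_pos.2 (lt_of_lt_of_le (by positivity) (le_max_right t (c ^ 2)))
  have hf : Continuous f := continuous_const.div
    (Real.continuous_sqrt.comp (continuous_id.max continuous_const)) fun t => (hpos t).ne'
  have hsa : IsSelfAdjoint (star x₀ * x₀) := IsSelfAdjoint.star_mul_self x₀
  set k := cfc f (star x₀ * x₀) with hk
  have hsk : star k = k := by rw [hk]; exact cfc_predicate (p := IsSelfAdjoint) f _
  have hφk : φ k = 1 := by
    have hφc : Continuous φ := AddMonoidHomClass.continuous_of_bound φ 1 fun z => by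
      simpa using NonUnitalStarAlgHom.norm_apply_le φ z
    rw [hk, StarAlgHom.map_cfc φ f _ hf.continuousOn hφc hsa (hsa.map φ),
      ← cfc_one ℝ (φ (star x₀ * x₀)) (hsa.map φ)]
    refine cfc_congr fun t ht => ?_
    have h := spectrum.norm_le_norm_of_mem ht
    rw [map_mul, map_star, CStarRing.norm_star_mul_self, Real.norm_eq_abs, ← pow_two] at h
    have ht' : max t (c ^ 2) = c ^ 2 := max_eq_right ((le_abs_self t).trans h)
    simp only [f, ht', Real.sqrt_sq hc.le, div_self hc.ne', Pi.one_apply]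
  refine ⟨x₀ * k, by rw [map_mul, hφk, mul_one], ?_⟩
  have hsq : ‖x₀ * k‖ * ‖x₀ * k‖ ≤ c * c := by
    rw [← CStarRing.norm_star_mul_self, star_mul, hsk, mul_assoc k, ← mul_assoc (star x₀)]
    conv_lhs => rw [hk]; arg 1; arg 2; arg 1; rw [← cfc_id' ℝ (star x₀ * x₀) hsa]
    rw [← cfc_mul (fun t : ℝ => t) f _ continuous_id.continuousOn hf.continuousOn,
      ← cfc_mul f (fun t => t * f t) _ hf.continuousOn
        (continuous_id.mul hf).continuousOn]
    refine norm_cfc_le (mul_nonneg hc.le hc.le) fun t ht => ?_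
    have ht0 : 0 ≤ t := spectrum_star_mul_self_nonneg t ht
    have hm : 0 < max t (c ^ 2) := lt_of_lt_of_le (by positivity) (le_max_right t (c ^ 2))
    have e : f t * (t * f t) = c * c * (t / max t (c ^ 2)) := by
      simp only [f]
      field_simp
      rw [Real.sq_sqrt hm.le]
      ring
    rw [e, Real.norm_eq_abs, abs_of_nonneg (by positivity)]
    exact mul_le_of_le_one_right (mul_nonneg hc.le hc.le)
      ((div_le_one hm).2 (le_max_left _ _))
  nlinarith [norm_nonneg (x₀ * k)]

/-- The range of a `*`-homomorphism is closed, with preimages of the same norm. -/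
theorem exists_preimage_of_mem_closure {y : B'} (hy : y ∈ closure (Set.range φ)) :
    ∃ x, φ x = y ∧ ‖x‖ ≤ ‖y‖ := by
  set f : NormedAddGroupHom B B' := (φ : B →+ B').mkNormedAddGroupHom 1 fun z => by
    simpa using NonUnitalStarAlgHom.norm_apply_le φ z
  set K : AddSubgroup B' := (φ : B →+ B').range
  have hsurj : f.SurjectiveOnWith K 1 := by
    rintro z ⟨z₀, rfl⟩
    obtain ⟨x, hx, hxn⟩ := exists_preimage_norm_le φ z₀
    exact ⟨x, hx, by simpa using hxn⟩
  have hK : y ∈ K.topologicalClosure := hy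
  obtain ⟨x, hx, -⟩ := controlled_closure_of_complete one_pos one_pos hsurj y hK
  have hx' : φ x = y := hx
  obtain ⟨x', hx'', hn⟩ := exists_preimage_norm_le φ x
  exact ⟨x', hx''.trans hx', hn.trans_eq (by rw [hx'])⟩

end Generic

variable {A : Type} [NonUnitalCStarAlgebra A] {ω : Ultrafilter ℕ}

theorem continuous_embA : Continuous (embA A ω) :=
  AddMonoidHomClass.continuous_of_bound (embA A ω) 1 fun x => by
    rw [one_mul]; exact NonUnitalStarAlgHom.norm_apply_le _ x

theorem embA_apply (a : A) : embA A ω a = emb ω (a : Unitization ℂ A) := rfl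

instance separableSpace_unitization [SeparableSpace A] : SeparableSpace (Unitization ℂ A) := by
  refine DenseRange.separableSpace
    (f := fun p : ℂ × A => algebraMap ℂ (Unitization ℂ A) p.1 + (p.2 : Unitization ℂ A))
    (Function.Surjective.denseRange fun x => ⟨(x.fst, x.snd), ?_⟩)
    (((continuous_algebraMap ℂ (Unitization ℂ A)).comp continuous_fst).add
      ((Unitization.isometry_inr (𝕜 := ℂ) (A := A)).continuous.comp continuous_snd))
  exact Unitization.inl_fst_add_inr_snd_eq x

/-- Elements of `F_ω(A)` lift without increasing the norm. -/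
theorem exists_lift (y : FA A ω) :
    ∃ x : CentralAlgebra ω (Unitization ℂ A), proj A ω x = y ∧ ‖x‖ ≤ ‖y‖ := by
  obtain ⟨x, hx, hn⟩ := exists_preimage_of_mem_closure (rep A ω) (y := y.1) y.2
  exact ⟨x, Subtype.ext hx, hn⟩

theorem proj_surjective : Function.Surjective (proj A ω) := fun y =>
  (exists_lift y).imp fun _ h => h.1

/-- An element of `F_ω(A)` has representing sequences of any larger bound. -/
theorem exists_lift_seq (y : FA A ω) {C : ℝ} (hC : ‖y‖ < C) :
    ∃ (v : ℕ →ᵇ Unitization ℂ A) (x : CentralAlgebra ω (Unitization ℂ A)),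
      cls ω v = (x : AOmega (Unitization ℂ A) ω) ∧ proj A ω x = y ∧ ∀ n, ‖v n‖ ≤ C := by
  obtain ⟨x, hx, hn⟩ := exists_lift y
  obtain ⟨z, hz⟩ := cls_surjective (x : AOmega (Unitization ℂ A) ω)
  have hzn : ‖OSeq.ofBCF (ω := ω) z‖ < C := by
    have h1 : ‖OSeq.ofBCF (ω := ω) z‖ = ‖x‖ := by
      show omegaNorm ω z = ‖(x : AOmega (Unitization ℂ A) ω)‖
      rw [← hz, norm_cls]
    rw [h1]
    exact hn.trans_lt hC
  obtain ⟨w, hw, hwb⟩ := exists_small _ hzn
  refine ⟨w.toBCF, x, ?_, hx, hwb⟩
  rw [← hz]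
  refine (sub_eq_zero.1 ?_).symm
  rw [← map_sub, ← norm_eq_zero, norm_cls]
  exact hw

/-- The norm in `F_ω(A)` is read off on the products with `A`. -/
theorem norm_proj_le {x : CentralAlgebra ω (Unitization ℂ A)} {c : ℝ} (hc : 0 ≤ c)
    (h : ∀ a : A, ‖(x : AOmega (Unitization ℂ A) ω) * embA A ω a‖ ≤ c * ‖a‖) :
    ‖proj A ω x‖ ≤ c :=
  let _ : PartialOrder A := CStarAlgebra.spectralOrder A
  have : StarOrderedRing A := CStarAlgebra.spectralOrderedRing A
  (TraceDim.acts_proj x).norm_le hc h

theorem norm_mul_embA_le (x : CentralAlgebra ω (Unitization ℂ A)) (a : A) :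
    ‖(x : AOmega (Unitization ℂ A) ω) * embA A ω a‖ ≤ ‖proj A ω x‖ * ‖a‖ :=
  let _ : PartialOrder A := CStarAlgebra.spectralOrder A
  have : StarOrderedRing A := CStarAlgebra.spectralOrderedRing A
  (TraceDim.acts_proj x).norm_mul_le a

/-- It is enough to look at a dense set of `A`. -/
theorem norm_proj_le_of_dense {x : CentralAlgebra ω (Unitization ℂ A)} {c : ℝ} (hc : 0 ≤ c)
    {b : ℕ → A} (hb : DenseRange b)
    (h : ∀ l, ‖(x : AOmega (Unitization ℂ A) ω) * embA A ω (b l)‖ ≤ c * ‖b l‖) :
    ‖proj A ω x‖ ≤ c :=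
  norm_proj_le hc fun a => hb.induction_on a
    (isClosed_le ((continuous_const.fun_mul continuous_embA).norm)
      (continuous_const.fun_mul continuous_norm)) h

theorem proj_eq_zero_iff {x : CentralAlgebra ω (Unitization ℂ A)} :
    proj A ω x = 0 ↔ ∀ a : A, (x : AOmega (Unitization ℂ A) ω) * embA A ω a = 0 := by
  refine ⟨fun h a => norm_le_zero_iff.1 ?_, fun h => norm_le_zero_iff.1 (norm_proj_le le_rfl ?_)⟩
  · have := norm_mul_embA_le x a
    rwa [h, norm_zero, zero_mul] at this
  · intro a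
    rw [h a, norm_zero, zero_mul]

theorem proj_eq_iff {x y : CentralAlgebra ω (Unitization ℂ A)} :
    proj A ω x = proj A ω y ↔ ∀ a : A, (x : AOmega (Unitization ℂ A) ω) * embA A ω a =
      (y : AOmega (Unitization ℂ A) ω) * embA A ω a := by
  rw [← sub_eq_zero, ← map_sub, proj_eq_zero_iff]
  refine forall_congr' fun a => ?_
  rw [show ((x - y : CentralAlgebra ω (Unitization ℂ A)) : AOmega (Unitization ℂ A) ω)
    = (x : AOmega (Unitization ℂ A) ω) - (y : AOmega (Unitization ℂ A) ω) from rfl, sub_mul,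
    sub_eq_zero]

end

end Vale.Agent.P095.All
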