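import Vale.Agent.P095.All.FA.Props.Quot
import Vale.Agent.P101.Bridge.Local

/-!
# P095: saturation of a quotient of a central sequence algebra

Countably many inequalities between liftable expressions that can be solved approximately can be
solved exactly. This gives saturation for an induced action and glues local fixed maps.
-/

namespace Vale.Agent.P095.All

open Filter Topology BoundedContinuousFunction TopologicalSpace Vale.Agent.P101.KR
  Vale.Agent.P101.Bridge Vale.Agent.P095.Equiv Vale.Agent.P095.Amen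

noncomputable section

variable {B F : Type} [CStarAlgebra B] [CStarAlgebra F] {ω : Ultrafilter ℕ}
  (p : CentralAlgebra ω B →⋆ₐ[ℂ] F)

/-- An expression on `F` computed coordinate by coordinate on representing sequences. -/
def Lifts {V : Type} (Φ : (V → F) → F) : Prop :=
  ∃ Ψ : (V → (ℕ →ᵇ B)) → (ℕ →ᵇ B),
    (∀ v v' n, (∀ i, v i n = v' i n) → Ψ v n = Ψ v' n) ∧
    ∀ (v : V → (ℕ →ᵇ B)) (z : V → CentralAlgebra ω B), (∀ i, cls ω (v i) = (z i : AOmega B ω)) →
      ∃ z' : CentralAlgebra ω B, cls ω (Ψ v) = (z' : AOmega B ω) ∧ p z' = Φ fun i => p (z i)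

variable {p} {V : Type} {Φ Φ' : (V → F) → F}

theorem Lifts.var (i : V) : Lifts p fun x => x i :=
  ⟨fun v => v i, fun _ _ _ h => h i, fun _ z h => ⟨z i, h i, rfl⟩⟩

theorem Lifts.const (r : ℂ) : Lifts p fun _ : V → F => algebraMap ℂ F r :=
  ⟨fun _ => algebraMap ℂ _ r, fun _ _ _ _ => rfl, fun _ _ _ =>
    ⟨algebraMap ℂ _ r, AlgHomClass.commutes (cls (A := B) ω) r, AlgHomClass.commutes p r⟩⟩

theorem Lifts.add (h : Lifts p Φ) (h' : Lifts p Φ') : Lifts p fun x => Φ x + Φ' x := by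
  obtain ⟨Ψ, hl, hv⟩ := h
  obtain ⟨Ψ', hl', hv'⟩ := h'
  refine ⟨fun v => Ψ v + Ψ' v, fun v v' n e => by simp [hl v v' n e, hl' v v' n e],
    fun v z hz => ?_⟩
  obtain ⟨a, ha, ha'⟩ := hv v z hz
  obtain ⟨b, hb, hb'⟩ := hv' v z hz
  exact ⟨a + b, by rw [map_add, ha, hb]; rfl, by rw [map_add, ha', hb']⟩

theorem Lifts.sub (h : Lifts p Φ) (h' : Lifts p Φ') : Lifts p fun x => Φ x - Φ' x := by
  obtain ⟨Ψ, hl, hv⟩ := h
  obtain ⟨Ψ', hl', hv'⟩ := h'
  refine ⟨fun v => Ψ v - Ψ' v, fun v v' n e => by simp [hl v v' n e, hl' v v' n e],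
    fun v z hz => ?_⟩
  obtain ⟨a, ha, ha'⟩ := hv v z hz
  obtain ⟨b, hb, hb'⟩ := hv' v z hz
  exact ⟨a - b, by rw [map_sub, ha, hb]; rfl, by rw [map_sub, ha', hb']⟩

theorem Lifts.mul (h : Lifts p Φ) (h' : Lifts p Φ') : Lifts p fun x => Φ x * Φ' x := by
  obtain ⟨Ψ, hl, hv⟩ := h
  obtain ⟨Ψ', hl', hv'⟩ := h'
  refine ⟨fun v => Ψ v * Ψ' v, fun v v' n e => by simp [hl v v' n e, hl' v v' n e],
    fun v z hz => ?_⟩
  obtain ⟨a, ha, ha'⟩ := hv v z hz
  obtain ⟨b, hb, hb'⟩ := hv' v z hz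
  exact ⟨a * b, by rw [map_mul, ha, hb]; rfl, by rw [map_mul, ha', hb']⟩

theorem Lifts.smul (r : ℂ) (h : Lifts p Φ) : Lifts p fun x => r • Φ x := by
  obtain ⟨Ψ, hl, hv⟩ := h
  refine ⟨fun v => r • Ψ v, fun v v' n e => by simp [hl v v' n e], fun v z hz => ?_⟩
  obtain ⟨a, ha, ha'⟩ := hv v z hz
  exact ⟨r • a, by rw [map_smul, ha]; rfl, by rw [map_smul, ha']⟩

theorem Lifts.adj (h : Lifts p Φ) : Lifts p fun x => star (Φ x) := by
  obtain ⟨Ψ, hl, hv⟩ := h
  refine ⟨fun v => star (Ψ v), fun v v' n e => by simp [hl v v' n e], fun v z hz => ?_⟩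
  obtain ⟨a, ha, ha'⟩ := hv v z hz
  exact ⟨star a, by rw [map_star, ha]; rfl, by rw [map_star, ha']⟩

theorem Lifts.act {G : Type} {α : G → B ≃⋆ₐ[ℂ] B} {β : G → F ≃⋆ₐ[ℂ] F} (hβ : InducedBy p α β)
    (g : G) (h : Lifts p Φ) : Lifts p fun x => β g (Φ x) := by
  obtain ⟨Ψ, hl, hv⟩ := h
  refine ⟨fun v => seqMap (α g).toStarAlgHom (Ψ v), fun v v' n e => by
    rw [seqMap_apply, seqMap_apply, hl v v' n e], fun v z hz => ?_⟩
  obtain ⟨a, ha, ha'⟩ := hv v z hz
  refine ⟨⟨omegaMap ω (α g).toStarAlgHom a.1, omegaMap_central ω (α g) a⟩, ?_, ?_⟩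
  · rw [← omegaMap_cls, ha]
  · show _ = β g (Φ fun i => p (z i))
    rw [← ha']
    exact (hβ g a _ rfl).symm

theorem lifts_term {k : ℕ} (t : Term k) : Lifts p fun x : Fin k → F => t.eval x := by
  induction t with
  | var i => exact Lifts.var i
  | one => simpa [Term.eval] using Lifts.const (p := p) (V := Fin k) 1
  | add a b ha hb => exact ha.add hb
  | mul a b ha hb => exact ha.mul hb
  | smul c a ha => exact ha.smul c
  | adj a ha => exact ha.adj

theorem lifts_rel (q : ℕ → ℂ) (r : Rel) : Lifts p fun x : ℕ → F => r.eval q x 0 := by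
  cases r with
  | gen i => exact Lifts.var i
  | diff i j => exact (Lifts.var i).sub (Lifts.var j)
  | add i j l => exact ((Lifts.var i).add (Lifts.var j)).sub (Lifts.var l)
  | mul i j l => exact ((Lifts.var i).mul (Lifts.var j)).sub (Lifts.var l)
  | adj i j => exact (Lifts.var i).adj.sub (Lifts.var j)
  | scal i j => exact (Lifts.var i).sub (Lifts.const (q j))
  | comm i j => simpa [Rel.eval] using Lifts.const (p := p) (V := ℕ) 0

variable {b : ℕ → B} {w : ℕ → ℝ}

/-- Countably many inequalities solved approximately are solved exactly. -/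
theorem saturate_quot [SeparableSpace B] (hω : (ω : Filter ℕ) ≤ cofinite) (hp : NormQuot p b w)
    [Countable V] {J : Type} [Countable J] (C : V → ℝ) (y : ℕ → V → F)
    (hy : ∀ m i, ‖y m i‖ ≤ C i) (Φ : J → (V → F) → F) (hΦ : ∀ j, Lifts p (Φ j)) (c : J → ℝ)
    (hc : ∀ j, 0 ≤ c j) (h : ∀ j, ∀ ε : ℝ, 0 < ε → ∀ᶠ m in atTop, ‖Φ j (y m)‖ ≤ c j + ε) :
    ∃ θ : V → F, ∀ j, ‖Φ j θ‖ ≤ c j := by
  classical
  choose Ψ hloc hval using hΦ
  set a : ℕ → B := denseSeq B
  have hlift : ∀ m i, ∃ (v : ℕ →ᵇ B) (z : CentralAlgebra ω B),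
      cls ω v = (z : AOmega B ω) ∧ p z = y m i ∧ ∀ n, ‖v n‖ ≤ C i + 1 := by
    intro m i
    obtain ⟨z, hz, hzn⟩ := hp.lift (y m i)
    obtain ⟨v, hv⟩ := cls_surjective (z : AOmega B ω)
    have hvn : ‖OSeq.ofBCF (ω := ω) v‖ < C i + 1 := by
      have h1 : ‖OSeq.ofBCF (ω := ω) v‖ = ‖z‖ := by
        show omegaNorm ω v = ‖(z : AOmega B ω)‖
        rw [← hv, norm_cls]
      linarith [hy m i]
    obtain ⟨v', hv', hvb⟩ := exists_small _ hvn
    refine ⟨v'.toBCF, z, ?_, hz, hvb⟩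
    rw [← hv]
    refine (sub_eq_zero.1 ?_).symm
    rw [← map_sub, ← norm_eq_zero, norm_cls]
    exact hv'
  choose v z hvz hzy hvb using hlift
  have : Encodable ((V × ℕ) ⊕ (J × ℕ)) := Encodable.ofCountable _
  let e : (V × ℕ) ⊕ (J × ℕ) → ℕ → ℕ → ℝ := fun o m n =>
    o.elim (fun x => ‖a x.2 * v m x.1 n - v m x.1 n * a x.2‖)
      fun x => ‖Ψ x.1 (v m) n * b x.2‖
  let bd : (V × ℕ) ⊕ (J × ℕ) → ℝ := fun o => o.elim (fun _ => 0) fun x => c x.1 * w x.2
  have hev : ∀ o, ∀ ε : ℝ, 0 < ε → ∀ᶠ m in atTop, ∀ᶠ n in (ω : Filter ℕ), e o m n < bd o + ε := by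
    rintro (⟨i, l⟩ | ⟨j, l⟩) ε hε
    · refine Eventually.of_forall fun m => ?_
      have hmem : cls ω (v m i) ∈ central B ω := by rw [hvz]; exact (z m i).2
      simpa [e, bd] using (cls_mem_central.1 hmem (a l)).eventually (gt_mem_nhds hε)
    · have hpos : 0 < ε / (w l + 1) := div_pos hε (by linarith [hp.nonneg l])
      filter_upwards [h j _ hpos] with m hm
      obtain ⟨z', hz', hpz⟩ := hval j (v m) (z m) (hvz m)
      refine (tendsto_omegaNorm ω (Ψ j (v m) * BoundedContinuousFunction.const ℕ (b l))).eventually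
        (gt_mem_nhds ?_)
      rw [← norm_cls, map_mul, hz']
      refine (hp.mul_le z' l).trans_lt ?_
      rw [hpz, show (fun i => p (z m i)) = y m from funext (hzy m)]
      refine (mul_le_mul_of_nonneg_right hm (hp.nonneg l)).trans_lt ?_
      show (c j + ε / (w l + 1)) * w l < c j * w l + ε
      rw [add_mul]
      refine add_lt_add_of_le_of_lt le_rfl ?_
      rw [div_mul_eq_mul_div, div_lt_iff₀ (by linarith [hp.nonneg l])]
      nlinarith [hp.nonneg l]
  obtain ⟨κ, hκ⟩ := exists_diag hω e bd hev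
  let W : V → ℕ →ᵇ B := fun i => BoundedContinuousFunction.ofNormedAddCommGroup
    (fun n => v (κ n) i n) continuous_of_discreteTopology (C i + 1) fun n => hvb _ _ n
  have hW : ∀ i, cls ω (W i) ∈ central B ω := by
    intro i
    have h0 : ∀ l, emb ω (a l) * cls ω (W i) = cls ω (W i) * emb ω (a l) := by
      intro l
      show cls ω (BoundedContinuousFunction.const ℕ (a l)) * cls ω (W i) =
        cls ω (W i) * cls ω (BoundedContinuousFunction.const ℕ (a l))
      rw [← map_mul, ← map_mul, cls_eq_iff]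
      refine Metric.tendsto_nhds.2 fun ε hε => ?_
      filter_upwards [hκ (.inl (i, l)) ε hε] with n hn
      simpa [e, bd, W] using hn
    rw [mem_central]
    intro x
    have hc : Continuous (emb (A := B) ω) :=
      AddMonoidHomClass.continuous_of_bound (emb (A := B) ω) 1 fun y => by
        simpa using NonUnitalStarAlgHom.norm_apply_le (emb (A := B) ω) y
    exact congrFun ((denseRange_denseSeq B).equalizer (hc.fun_mul continuous_const)
      (continuous_const.fun_mul hc) (funext h0)) x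
  refine ⟨fun i => p ⟨cls ω (W i), hW i⟩, fun j => ?_⟩
  obtain ⟨z', hz', hpz⟩ := hval j W (fun i => ⟨cls ω (W i), hW i⟩) fun _ => rfl
  rw [← hpz]
  refine hp.le (hc j) fun l => ?_
  rw [← hz']
  show ‖_ * cls ω (BoundedContinuousFunction.const ℕ (b l))‖ ≤ _
  rw [← map_mul, norm_cls]
  refine le_of_forall_pos_le_add fun ε hε => le_of_tendsto (tendsto_omegaNorm ω _) ?_
  filter_upwards [hκ (.inr (j, l)) ε hε] with n hn
  show ‖Ψ j W n * b l‖ ≤ _
  rw [hloc j W (v (κ n)) n fun i => rfl]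
  exact hn.le

variable {G : Type} [Group G] {α : G → B ≃⋆ₐ[ℂ] B} {β : G → F ≃⋆ₐ[ℂ] F}

/-- Saturation for an action of a finitely generated group. -/
theorem saturated'_quot [SeparableSpace B] (hω : (ω : Filter ℕ) ≤ cofinite) (hp : NormQuot p b w)
    (hβ : InducedBy p α β) (hmul : ∀ g h x, β (g * h) x = β g (β h x)) (S : Finset G)
    (hS : Subgroup.closure (S : Set G) = ⊤) : Saturated' β S := by
  intro k I rels C h
  have hpos : ∀ m : ℕ, (0 : ℝ) < 1 / (m + 1 : ℝ) := fun m => by positivity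
  choose x hxC hxr hxI using fun m : ℕ => h _ (hpos m)
  let Φ : Fin rels.length ⊕ ({i // i ∈ I} × {g // g ∈ S}) → (Fin k → F) → F := fun o =>
    o.elim (fun r y => (rels.get r).eval y) fun q y => β q.2.1 (y q.1.1) - y q.1.1
  have hΦ : ∀ o, Lifts p (Φ o) := by
    rintro (r | q)
    · exact lifts_term _
    · exact ((Lifts.var q.1.1).act hβ q.2.1).sub (Lifts.var _)
  obtain ⟨θ, hθ⟩ := saturate_quot hω hp (fun _ => C) x hxC Φ hΦ (fun _ => 0) (fun _ => le_rfl)
    fun o ε hε => by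
      filter_upwards [(tendsto_one_div_add_atTop_nhds_zero_nat (𝕜 := ℝ)).eventually
        (gt_mem_nhds hε)] with m hm
      rw [zero_add]
      rcases o with r | ⟨i, g⟩
      · exact (hxr m _ (List.get_mem rels r)).trans hm.le
      · exact (hxI m i.1 i.2 g.1 g.2).trans hm.le
  have h1 : ∀ y, β 1 y = y := fun y => EquivLike.injective (β 1) <| by
    rw [← hmul, one_mul]
  refine ⟨θ, fun r hr => ?_, fun i hi g => ?_⟩
  · obtain ⟨n, rfl⟩ := List.get_of_mem hr
    exact norm_le_zero_iff.1 (hθ (.inl n))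
  · have hg : g ∈ Subgroup.closure (S : Set G) := hS ▸ Subgroup.mem_top g
    induction hg using Subgroup.closure_induction with
    | mem g hg => exact sub_eq_zero.1 (norm_le_zero_iff.1 (hθ (.inr (⟨i, hi⟩, ⟨g, hg⟩))))
    | one => exact h1 _
    | mul g g' _ _ hg hg' => rw [hmul, hg', hg]
    | inv g _ hg =>
      conv_lhs => rw [← hg]
      rw [← hmul, inv_mul_cancel, h1]

/-- A map on a dense sequence respecting the relations extends. -/
theorem exists_extension_rel {D E : Type} [CStarAlgebra D] [CStarAlgebra E] {x : ℕ → D}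
    (hx : DenseRange x) {q : ℕ → ℂ} (hq : DenseRange q) (θ : ℕ → E)
    (hθ : ∀ r : Rel, ‖r.eval q θ 0‖ ≤ ‖r.eval q x 0‖) :
    ∃ ψ : D →⋆ₐ[ℂ] E, ∀ i, ψ (x i) = θ i := by
  have hs : ∀ d : D, ∃ s : ℕ → ℕ, Tendsto (fun k => x (s k)) atTop (𝓝 d) := by
    intro d
    obtain ⟨u, hu, hlim⟩ := mem_closure_iff_seq_limit.1 (hx d)
    choose s hs using hu
    exact ⟨s, by simpa [show (fun k => x (s k)) = u from funext hs] using hlim⟩
  choose s hs using hs
  have hcauchy : ∀ d, ∃ z, Tendsto (fun k => θ (s d k)) atTop (𝓝 z) := by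
    intro d
    refine cauchySeq_tendsto_of_complete (Metric.cauchySeq_iff.2 fun ε hε => ?_)
    obtain ⟨N, hN⟩ := Metric.cauchySeq_iff.1 (hs d).cauchySeq ε hε
    refine ⟨N, fun m hm n hn => ?_⟩
    rw [dist_eq_norm]
    refine lt_of_le_of_lt (hθ (.diff (s d m) (s d n))) ?_
    have := hN m hm n hn
    rwa [dist_eq_norm] at this
  choose Θ hΘ using hcauchy
  have squeeze : ∀ (f : ℕ → Rel) {L : E}, Tendsto (fun k => (f k).eval q θ 0) atTop (𝓝 L) →
      Tendsto (fun k => (f k).eval q x 0) atTop (𝓝 0) → L = 0 := fun f L h1 h2 =>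
    norm_le_zero_iff.1 (le_of_tendsto_of_tendsto' h1.norm
      (tendsto_zero_iff_norm_tendsto_zero.1 h2) fun k => hθ (f k))
  have halg : ∀ c : ℂ, Θ (algebraMap ℂ D c) = algebraMap ℂ E c := by
    intro c
    obtain ⟨u, hu, hlim⟩ := mem_closure_iff_seq_limit.1 (hq c)
    choose t ht using hu
    have ht' : Tendsto (fun k => q (t k)) atTop (𝓝 c) := by
      simpa [show (fun k => q (t k)) = u from funext ht] using hlim
    refine sub_eq_zero.1 (squeeze (fun k => .scal (s (algebraMap ℂ D c) k) (t k))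
      ((hΘ _).sub (((continuous_algebraMap ℂ E).tendsto c).comp ht')) ?_)
    simpa [Rel.eval] using
      (hs (algebraMap ℂ D c)).sub (((continuous_algebraMap ℂ D).tendsto c).comp ht')
  refine ⟨
    { toFun := Θ
      map_one' := by simpa using halg 1
      map_zero' := by simpa using halg 0
      commutes' := halg
      map_mul' := fun d e => (sub_eq_zero.1
        (squeeze (fun k => .mul (s d k) (s e k) (s (d * e) k))
          (((hΘ d).mul (hΘ e)).sub (hΘ (d * e)))
          (by simpa [Rel.eval] using ((hs d).mul (hs e)).sub (hs (d * e))))).symm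
      map_add' := fun d e => (sub_eq_zero.1
        (squeeze (fun k => .add (s d k) (s e k) (s (d + e) k))
          (((hΘ d).add (hΘ e)).sub (hΘ (d + e)))
          (by simpa [Rel.eval] using ((hs d).add (hs e)).sub (hs (d + e))))).symm
      map_star' := fun d => (sub_eq_zero.1
        (squeeze (fun k => .adj (s d k) (s (star d) k)) ((hΘ d).star.sub (hΘ (star d)))
          (by simpa [Rel.eval] using (hs d).star.sub (hs (star d))))).symm }, fun i => ?_⟩
  refine sub_eq_zero.1 (squeeze (fun k => .diff (s (x i) k) i)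
    ((hΘ (x i)).sub tendsto_const_nhds) ?_)
  simpa [Rel.eval] using
    (hs (x i)).sub (tendsto_const_nhds : Tendsto (fun _ : ℕ => x i) atTop (𝓝 (x i)))

/-- Local maps fixed by finitely many elements give one fixed map. -/
theorem localFixed_quot [Countable G] [SeparableSpace B] (hω : (ω : Filter ℕ) ≤ cofinite)
    (hp : NormQuot p b w) (hβ : InducedBy p α β) {D : Type} [CStarAlgebra D] [SeparableSpace D]
    (hloc : ∀ (T : Finset G) (P : Finset D) (ε : ℝ), 0 < ε → ∃ (S : StarSubalgebra ℂ D),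
      IsClosed (S : Set D) ∧ (∃ ρ : S →⋆ₐ[ℂ] F, ∀ g ∈ T, ∀ y, β g (ρ y) = ρ y) ∧
      ∀ x ∈ P, ∃ y ∈ S, ‖x - y‖ ≤ ε) :
    ∃ ψ : D →⋆ₐ[ℂ] F, ∀ g d, β g (ψ d) = ψ d := by
  classical
  obtain ⟨enum, henum⟩ := exists_surjective_nat G
  set x : ℕ → D := denseSeq D
  set q : ℕ → ℂ := denseSeq ℂ
  have hk : ∀ k : ℕ, ∃ S : StarSubalgebra ℂ D, IsClosed (S : Set D) ∧
      (∃ ρ : S →⋆ₐ[ℂ] F, ∀ j ≤ k, ∀ y, β (enum j) (ρ y) = ρ y) ∧
      ∃ y : ℕ → S, (∀ i ≤ k, ‖x i - y i‖ ≤ 1 / (k + 1 : ℝ)) ∧ ∀ i, ‖y i‖ ≤ ‖x i‖ + 1 := by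
    intro k
    obtain ⟨S, hS, ⟨ρ, hρ⟩, hy⟩ := hloc ((Finset.range (k + 1)).image enum)
      ((Finset.range (k + 1)).image x) (1 / (k + 1 : ℝ)) (by positivity)
    have hy' : ∀ i, ∃ y : S, (i ≤ k → ‖x i - y‖ ≤ 1 / (k + 1 : ℝ)) ∧ ‖y‖ ≤ ‖x i‖ + 1 := fun i => by
      by_cases hi : i ≤ k
      · obtain ⟨y, hyS, hyn⟩ := hy (x i)
          (Finset.mem_image_of_mem x (Finset.mem_range.2 (by omega)))
        refine ⟨⟨y, hyS⟩, fun _ => hyn, ?_⟩
        show ‖y‖ ≤ ‖x i‖ + 1
        have h1 : 1 / (k + 1 : ℝ) ≤ 1 := by rw [div_le_one (by positivity)]; linarith [k.cast_nonneg (α := ℝ)]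
        have h2 : ‖y‖ ≤ ‖x i‖ + ‖x i - y‖ := norm_le_norm_add_norm_sub _ _
        linarith
      · exact ⟨0, fun h => absurd h hi, by rw [norm_zero]; positivity⟩
    choose y hy₁ hy₂ using hy'
    exact ⟨S, hS, ⟨ρ, fun j hj => hρ _
      (Finset.mem_image_of_mem enum (Finset.mem_range.2 (by omega)))⟩, y, hy₁, hy₂⟩
  choose S hS hρ y hy hyb using hk
  choose ρ hρfix using hρ
  have hyx : ∀ i, Tendsto (fun k => (y k i : D)) atTop (𝓝 (x i)) := fun i => by
    refine tendsto_iff_norm_sub_tendsto_zero.2 (squeeze_zero' (Eventually.of_forall fun _ =>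
      norm_nonneg _) ?_ tendsto_one_div_add_atTop_nhds_zero_nat)
    filter_upwards [eventually_ge_atTop i] with k hki
    rw [norm_sub_rev]
    exact hy k i hki
  have hρn : ∀ k (z : S k), ‖ρ k z‖ ≤ ‖(z : D)‖ := fun k z => by
    have : IsClosed (S k : Set D) := hS k
    exact NonUnitalStarAlgHom.norm_apply_le (ρ k) z
  let Φ : Rel ⊕ (ℕ × ℕ) → (ℕ → F) → F := fun o =>
    o.elim (fun r y => r.eval q y 0) fun u y => β (enum u.2) (y u.1) - y u.1
  have hΦ : ∀ o, Lifts p (Φ o) := by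
    rintro (r | u)
    · exact lifts_rel q r
    · exact ((Lifts.var u.1).act hβ _).sub (Lifts.var _)
  obtain ⟨θ, hθ⟩ := saturate_quot hω hp (fun i => ‖x i‖ + 1) (fun k i => ρ k (y k i))
    (fun k i => (hρn k _).trans (hyb k i)) Φ hΦ
    (fun o => o.elim (fun r => ‖r.eval q x 0‖) fun _ => 0)
    (fun o => by rcases o with r | u <;> simp) fun o ε hε => by
      rcases o with r | ⟨i, j⟩
      · filter_upwards [(tendsto_eval q hyx r).norm.eventually
          (gt_mem_nhds (lt_add_of_pos_right ‖r.eval q x 0‖ hε))] with k hk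
        have e : r.eval q (fun i => ρ k (y k i)) 0 = ρ k (r.eval q (y k) 0) := by
          rw [Rel.eval_map]
          simp only [Pi.zero_apply, map_zero]
          rfl
        have e' : r.eval q (fun i => (y k i : D)) 0 = (S k).subtype (r.eval q (y k) 0) := by
          rw [Rel.eval_map]
          simp only [Pi.zero_apply, map_zero]
          rfl
        show ‖r.eval q (fun i => ρ k (y k i)) 0‖ ≤ ‖r.eval q x 0‖ + ε
        rw [e]
        refine (hρn k _).trans ?_
        rw [e'] at hk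
        exact hk.le
      · filter_upwards [eventually_ge_atTop j] with k hk
        show ‖β (enum j) (ρ k (y k i)) - ρ k (y k i)‖ ≤ 0 + ε
        rw [hρfix k j hk, sub_self, norm_zero]
        linarith
  obtain ⟨ψ, hψ⟩ := exists_extension_rel (denseRange_denseSeq D) (denseRange_denseSeq ℂ) θ
    fun r => hθ (.inl r)
  refine ⟨ψ, fun g d => ?_⟩
  obtain ⟨j, rfl⟩ := henum g
  have hc : Continuous (β (enum j)) := AddMonoidHomClass.continuous_of_bound (β (enum j)) 1
    fun z => by simpa using NonUnitalStarAlgHom.norm_apply_le (β (enum j)) z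
  have hψc : Continuous ψ := AddMonoidHomClass.continuous_of_bound ψ 1 fun z => by
    simpa using NonUnitalStarAlgHom.norm_apply_le ψ z
  refine congrFun ((denseRange_denseSeq D).equalizer (g := fun d => β (enum j) (ψ d))
    (h := fun d => ψ d) (hc.comp hψc) hψc (funext fun i => ?_)) d
  show β (enum j) (ψ (x i)) = ψ (x i)
  rw [hψ]
  exact sub_eq_zero.1 (norm_le_zero_iff.1 (hθ (.inr (i, j))))

end

end Vale.Agent.P095.All
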